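import Vale.Agent.P036.MathlibUsed

namespace Vale.Agent.P036

/-- the area of the triangle with vertices `p`, `q`, `r` in the Euclidean plane -/
noncomputable def triArea (p q r : EuclideanSpace ℝ (Fin 2)) : ℝ :=
  |(q 0 - p 0) * (r 1 - p 1) - (q 1 - p 1) * (r 0 - p 0)| / 2

/-- the smallest area of a triangle whose vertices are three distinct points of `P` -/
noncomputable def minArea (P : Finset (EuclideanSpace ℝ (Fin 2))) : ℝ :=
  sInf {A : ℝ | ∃ p ∈ P, ∃ q ∈ P, ∃ r ∈ P, p ≠ q ∧ q ≠ r ∧ p ≠ r ∧ A = triArea p q r}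

end Vale.Agent.P036
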